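import Vale.Agent.P235.ST.H317.Defs

/-! P235, (ST) O(1), rows r6 + r7 (helper276): the bumps of one level. -/

namespace Vale.Agent.P235.STO.H276

open SimpleGraph

/-! ### tents on the line -/

theorem tent_big {w a : ℝ} (hw : 0 < w) (ha : 0 ≤ a) :
    ∃ n : ℕ, (n : ℝ) * w ≤ a + w ∧ w / 2 ≤ w - |a - n * w| := by
  obtain ⟨h1, h2⟩ : ((⌊a / w⌋₊ : ℕ) : ℝ) * w ≤ a ∧ a < ((⌊a / w⌋₊ : ℕ) + 1 : ℝ) * w := by
    have h0 : 0 ≤ a / w := div_nonneg ha hw.le
    have h1 := Nat.floor_le h0
    have h2 := Nat.lt_floor_add_one (a / w)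
    rw [le_div_iff₀ hw] at h1
    rw [div_lt_iff₀ hw] at h2
    exact ⟨h1, h2⟩
  generalize ⌊a / w⌋₊ = n at h1 h2
  by_cases h : a ≤ n * w + w / 2
  · refine ⟨n, by linarith, ?_⟩
    rw [abs_of_nonneg (by linarith)]
    linarith
  · push Not at h
    refine ⟨n + 1, by push_cast; linarith, ?_⟩
    push_cast
    rw [abs_of_nonpos (by linarith)]
    linarith

theorem tent_diff {w a b : ℝ} (hw : 0 < w) (ha : 0 ≤ a) (hab : a ≤ b) :
    ∃ n : ℕ, (n : ℝ) * w ≤ b + w ∧
      min ((b - a) / 2) (w / 2) ≤ |max 0 (w - |a - n * w|) - max 0 (w - |b - n * w|)| := by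
  obtain ⟨h1, h2⟩ : ((⌊a / w⌋₊ : ℕ) : ℝ) * w ≤ a ∧ a < ((⌊a / w⌋₊ : ℕ) + 1 : ℝ) * w := by
    have h0 : 0 ≤ a / w := div_nonneg ha hw.le
    have h1 := Nat.floor_le h0
    have h2 := Nat.lt_floor_add_one (a / w)
    rw [le_div_iff₀ hw] at h1
    rw [div_lt_iff₀ hw] at h2
    exact ⟨h1, h2⟩
  generalize ⌊a / w⌋₊ = n at h1 h2
  by_cases hA : min ((b - a) / 2) (w / 2) ≤ (n + 1 : ℝ) * w - a
  · refine ⟨n, by linarith, ?_⟩
    have e1 : w - |a - n * w| = (n + 1 : ℝ) * w - a := by
      rw [abs_of_nonneg (by linarith)]; ring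
    have e2 : w - |b - n * w| = ((n + 1 : ℝ) * w - a) - (b - a) := by
      rw [abs_of_nonneg (by linarith)]; ring
    rw [e1, e2, max_eq_right (by linarith)]
    refine le_trans ?_ (le_abs_self _)
    rcases le_total 0 (((n + 1 : ℝ) * w - a) - (b - a)) with h | h
    · rw [max_eq_right h]
      have := min_le_left ((b - a) / 2) (w / 2)
      linarith
    · rw [max_eq_left h]
      linarith
  · push Not at hA
    have hA1 := hA.trans_le (min_le_left _ _)
    have hA2 := hA.trans_le (min_le_right _ _)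
    by_cases hb : b < (n + 2 : ℝ) * w
    · refine ⟨n + 2, by push_cast; linarith, ?_⟩
      push_cast
      have e1 : w - |a - (n + 2 : ℝ) * w| ≤ 0 := by
        rw [abs_of_nonpos (by linarith)]
        linarith
      have e2 : w - |b - (n + 2 : ℝ) * w| = b - (n + 1) * w := by
        rw [abs_of_nonpos (by linarith)]
        ring
      rw [e2, max_eq_left e1, max_eq_right (by linarith), zero_sub, abs_neg]
      refine le_trans ?_ (le_abs_self _)
      refine (min_le_left _ _).trans ?_
      linarith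
    · push Not at hb
      obtain ⟨N, hN1, hN2⟩ := tent_big hw (ha.trans hab)
      refine ⟨N, hN1, ?_⟩
      have hN3 : |b - N * w| ≤ w / 2 := by linarith
      rw [abs_le] at hN3
      have hN4 : (n : ℝ) + 2 ≤ N := by
        by_contra hc
        push Not at hc
        have hc1 : N < n + 2 := by exact_mod_cast hc
        have hc2 : N ≤ n + 1 := by omega
        have hc3 : (N : ℝ) ≤ n + 1 := by exact_mod_cast hc2
        have := mul_le_mul_of_nonneg_right hc3 hw.le
        linarith
      have h5 := mul_le_mul_of_nonneg_right hN4 hw.le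
      have e1 : w - |a - (N : ℝ) * w| ≤ 0 := by
        rw [abs_of_nonpos (by linarith)]
        linarith
      rw [max_eq_left e1, max_eq_right (by linarith [hw]), zero_sub, abs_neg]
      refine le_trans ?_ (le_abs_self _)
      exact (min_le_right _ _).trans hN2

variable {V : Type} (W : LWorld V)

/-! ### bands -/

theorem th_pos (k : ℕ) : 0 < th k := by unfold th; positivity

theorem pos_nonneg (k m : ℕ) (x : V) : 0 ≤ W.pos k m x := Int.emod_nonneg _ (th_pos k).ne'

theorem pos_lt (k m : ℕ) (x : V) : W.pos k m x < th k := Int.emod_lt_of_pos _ (th_pos k)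

theorem pos_add (k m : ℕ) (x : V) :
    th k * W.bi k m x + W.pos k m x = W.u x + m * 2 ^ k := Int.mul_ediv_add_emod _ _

/-- representative of the component of `x` in its band -/
noncomputable def rep (k m : ℕ) (x : V) : V := Quot.out ((W.Bg k m).connectedComponentMk x)

theorem rep_eq {k m : ℕ} {x y : V} :
    rep W k m x = rep W k m y ↔ (W.Bg k m).Reachable x y := by
  unfold rep
  constructor
  · intro h
    have e : ∀ c : (W.Bg k m).ConnectedComponent,
        (W.Bg k m).connectedComponentMk (Quot.out c) = c := fun c => Quot.out_eq c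
    have h1 := congrArg (W.Bg k m).connectedComponentMk h
    rw [e, e] at h1
    exact ConnectedComponent.eq.1 h1
  · intro h
    rw [ConnectedComponent.eq.2 h]

/-- distance of the height of `x` to the complement of its band -/
def hd (k m : ℕ) (x : V) : ℤ := min (W.pos k m x + 1) (th k - W.pos k m x)

theorem hd_lip {k m : ℕ} {x y : V} (h : W.G.Adj x y) (hb : W.bi k m x = W.bi k m y) :
    |hd W k m x - hd W k m y| ≤ 1 := by
  have h1 := pos_add W k m x
  have h2 := pos_add W k m y
  rw [hb] at h1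
  have h3 := W.unit x y h
  have h4 : W.pos k m x - W.pos k m y = W.u x - W.u y := by linarith
  rw [← h4] at h3
  unfold hd
  rw [abs_le]
  rw [abs_eq (by norm_num)] at h3
  omega

theorem hd_cross {k m : ℕ} {x y : V} (h : W.G.Adj x y) (hb : W.bi k m x ≠ W.bi k m y) :
    hd W k m x ≤ 1 := by
  have h1 := pos_add W k m x
  have h2 := pos_add W k m y
  have h3 := W.unit x y h
  have h4 := pos_lt W k m x
  have h5 := pos_lt W k m y
  have h6 := pos_nonneg W k m x
  have h7 := pos_nonneg W k m y
  have h0 := th_pos k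
  rw [abs_eq (by norm_num)] at h3
  unfold hd
  rcases lt_or_gt_of_ne hb with h8 | h8
  · have h9 : th k ≤ th k * (W.bi k m y - W.bi k m x) :=
      le_mul_of_one_le_right h0.le (by omega)
    have h10 : th k * (W.bi k m y - W.bi k m x) = th k * W.bi k m y - th k * W.bi k m x := by
      ring
    rw [h10] at h9
    omega
  · have h9 : th k ≤ th k * (W.bi k m x - W.bi k m y) :=
      le_mul_of_one_le_right h0.le (by omega)
    have h10 : th k * (W.bi k m x - W.bi k m y) = th k * W.bi k m x - th k * W.bi k m y := by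
      ring
    rw [h10] at h9
    omega

theorem hd_mid {k m : ℕ} {x : V} (h : W.mid k m x) : (th k : ℝ) / 4 ≤ (hd W k m x : ℝ) := by
  obtain ⟨h1, h2⟩ := h
  have h3 : th k = 16 * 2 ^ k := rfl
  have h4 : th k ≤ 4 * hd W k m x := by
    unfold hd
    omega
  have h5 : (th k : ℝ) ≤ 4 * (hd W k m x : ℝ) := by exact_mod_cast h4
  linarith

end Vale.Agent.P235.STO.H276
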