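import Vale.Agent.P235.ST.H276.Bumps

/-! P235, (ST) O(1), rows r6 + r7 (helper276): the bumps of one level, part 2. -/

namespace Vale.Agent.P235.STO.H276

open SimpleGraph

variable {V : Type} (W : LWorld V)

theorem bi_of_reach' (k m : ℕ) {x y : V} (h : (W.Bg k m).Reachable x y) :
    W.bi k m x = W.bi k m y := by
  obtain ⟨g⟩ := h
  induction g with
  | nil => rfl
  | cons h p ih => exact h.2.trans ih

theorem src_eq {k m : ℕ} {x y : V} (h : (W.Bg k m).Reachable x y) :
    W.src k m x = W.src k m y := by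
  ext z
  constructor
  · rintro ⟨h1, h2, h3⟩
    exact ⟨h.symm.trans h1, h2, fun w hw hr => h3 w hw (h.trans hr)⟩
  · rintro ⟨h1, h2, h3⟩
    exact ⟨h.trans h1, h2, fun w hw hr => h3 w hw (h.symm.trans hr)⟩

theorem dist_tri {G : SimpleGraph V} {x y z : V} (h1 : G.Reachable x y) (h2 : G.Reachable y z) :
    G.dist x z ≤ G.dist x y + G.dist y z := by
  obtain ⟨p, hp⟩ := h1.exists_walk_length_eq_dist
  obtain ⟨q, hq⟩ := h2.exists_walk_length_eq_dist
  rw [← hp, ← hq, ← Walk.length_append]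
  exact dist_le _

theorem D_lip {k m : ℕ} {x y : V} (h : (W.Bg k m).Reachable x y) :
    W.D k m y ≤ W.D k m x + (W.Bg k m).dist x y := by
  by_cases hne : (W.src k m x).Nonempty
  · have hn : {n | ∃ y ∈ W.src k m x, n = (W.Bg k m).dist x y}.Nonempty := by
      obtain ⟨y, hy⟩ := hne
      exact ⟨_, y, hy, rfl⟩
    obtain ⟨y0, hy0, e⟩ := Nat.sInf_mem hn
    have e1 : W.D k m x = (W.Bg k m).dist x y0 := e
    have h2 : W.D k m y ≤ (W.Bg k m).dist y y0 :=
      Nat.sInf_le ⟨y0, by rw [← src_eq W h]; exact hy0, rfl⟩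
    have h3 := dist_tri h.symm hy0.1
    rw [dist_comm (u := y) (v := x)] at h3
    omega
  · have h2 : W.D k m y = 0 := by
      have : {n | ∃ z ∈ W.src k m y, n = (W.Bg k m).dist y z} = ∅ := by
        rw [Set.eq_empty_iff_forall_notMem]
        rintro n ⟨z, hz, -⟩
        exact hne ⟨z, by rw [src_eq W h]; exact hz⟩
      unfold LWorld.D
      rw [this]
      exact Nat.sInf_empty
    omega

theorem D_adj {k m : ℕ} {x y : V} (h : (W.Bg k m).Adj x y) :
    |(W.D k m x : ℝ) - W.D k m y| ≤ 1 := by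
  have h1 := D_lip W h.reachable
  have h2 := D_lip W h.symm.reachable
  have h3 : (W.Bg k m).dist x y ≤ 1 := dist_le h.toWalk
  have h4 : (W.Bg k m).dist y x ≤ 1 := dist_le h.symm.toWalk
  have h5 : W.D k m y ≤ W.D k m x + 1 := by omega
  have h6 : W.D k m x ≤ W.D k m y + 1 := by omega
  have h7 : (W.D k m y : ℝ) ≤ W.D k m x + 1 := by exact_mod_cast h5
  have h8 : (W.D k m x : ℝ) ≤ W.D k m y + 1 := by exact_mod_cast h6
  rw [abs_le]
  constructor <;> linarith

/-! ### the bumps -/

/-- the inner function of a bump -/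
noncomputable def fn (ρ : V → ℝ) (k m n : ℕ) (x : V) : ℝ :=
  min (4 * (th k : ℝ) - d1 * ρ x) (min (kap * ρ x - 3 * (th k : ℝ))
    (min (hd W k m x : ℝ) ((th k : ℝ) / 4 - |(W.D k m x : ℝ) - n * ((th k : ℝ) / 4)|)))

open Classical in
/-- a bump -/
noncomputable def T (ρ : V → ℝ) (k m n : ℕ) (c x : V) : ℝ :=
  if rep W k m x = c then max 0 (fn W ρ k m n x) else 0

variable {W}

theorem T_nonneg (ρ : V → ℝ) (k m n : ℕ) (c x : V) : 0 ≤ T W ρ k m n c x := by
  unfold T
  split_ifs
  · exact le_max_left _ _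
  · exact le_rfl

theorem T_le_hd (ρ : V → ℝ) (k m n : ℕ) (c x : V) (h : hd W k m x ≤ 1) :
    T W ρ k m n c x ≤ 1 := by
  have h' : (hd W k m x : ℝ) ≤ 1 := by exact_mod_cast h
  unfold T
  split_ifs
  · refine max_le zero_le_one ?_
    exact ((min_le_right _ _).trans ((min_le_right _ _).trans (min_le_left _ _))).trans h'
  · exact zero_le_one

theorem T_lip {ρ : V → ℝ} (h : W.Scale ρ) (k m n : ℕ) (c : V) {x y : V} (ha : W.G.Adj x y) :
    |T W ρ k m n c x - T W ρ k m n c y| ≤ 1 := by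
  by_cases hb : W.bi k m x = W.bi k m y
  · have hadj : (W.Bg k m).Adj x y := ⟨ha, hb⟩
    have hrep : rep W k m x = rep W k m y := (rep_eq W).2 hadj.reachable
    unfold T
    rw [hrep]
    split_ifs
    · have hd1 : W.d x y ≤ 1 := by
        have h1 : W.G.dist x y ≤ 1 := dist_le ha.toWalk
        unfold LWorld.d
        exact_mod_cast h1
      have hk : (0 : ℝ) < kap := by unfold kap; positivity
      have hρ : |ρ x - ρ y| ≤ 1 / kap :=
        (h.lip x y).trans (div_le_div_of_nonneg_right hd1 hk.le)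
      have a1 : |(4 * (th k : ℝ) - d1 * ρ x) - (4 * (th k : ℝ) - d1 * ρ y)| ≤ 1 := by
        have e : (4 * (th k : ℝ) - d1 * ρ x) - (4 * (th k : ℝ) - d1 * ρ y) =
            -(d1 * (ρ x - ρ y)) := by ring
        rw [e, abs_neg, abs_mul]
        have hd : |d1| = 1 / 2 ^ 100 := by unfold d1; exact abs_of_pos (by positivity)
        rw [hd]
        have := mul_le_mul_of_nonneg_left hρ (show (0 : ℝ) ≤ 1 / 2 ^ 100 by positivity)
        refine this.trans ?_
        unfold kap
        norm_num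
      have a2 : |(kap * ρ x - 3 * (th k : ℝ)) - (kap * ρ y - 3 * (th k : ℝ))| ≤ 1 := by
        have e : (kap * ρ x - 3 * (th k : ℝ)) - (kap * ρ y - 3 * (th k : ℝ)) =
            kap * (ρ x - ρ y) := by ring
        rw [e, abs_mul, abs_of_pos hk]
        have := mul_le_mul_of_nonneg_left hρ hk.le
        refine this.trans ?_
        rw [mul_one_div_cancel hk.ne']
      have a3 : |(hd W k m x : ℝ) - (hd W k m y : ℝ)| ≤ 1 := by
        have := hd_lip W ha hb
        exact_mod_cast this
      have a4 : |((th k : ℝ) / 4 - |(W.D k m x : ℝ) - n * ((th k : ℝ) / 4)|) -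
          ((th k : ℝ) / 4 - |(W.D k m y : ℝ) - n * ((th k : ℝ) / 4)|)| ≤ 1 := by
        have h1 := D_adj W hadj
        have e : ((th k : ℝ) / 4 - |(W.D k m x : ℝ) - n * ((th k : ℝ) / 4)|) -
          ((th k : ℝ) / 4 - |(W.D k m y : ℝ) - n * ((th k : ℝ) / 4)|) =
            -(|(W.D k m x : ℝ) - n * ((th k : ℝ) / 4)| -
              |(W.D k m y : ℝ) - n * ((th k : ℝ) / 4)|) := by ring
        rw [e, abs_neg]
        refine (abs_abs_sub_abs_le_abs_sub _ _).trans ?_
        refine le_trans (le_of_eq ?_) h1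
        congr 1
        ring
      refine (abs_max_sub_max_le_max _ _ _ _).trans (max_le (by simp) ?_)
      unfold fn
      refine (abs_min_sub_min_le_max _ _ _ _).trans (max_le a1 ?_)
      refine (abs_min_sub_min_le_max _ _ _ _).trans (max_le a2 ?_)
      exact (abs_min_sub_min_le_max _ _ _ _).trans (max_le a3 a4)
    · simp
  · have h1 := T_le_hd ρ k m n c x (hd_cross W ha hb)
    have h2 := T_le_hd ρ k m n c y (hd_cross W ha.symm (Ne.symm hb))
    have h3 := T_nonneg (W := W) ρ k m n c x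
    have h4 := T_nonneg (W := W) ρ k m n c y
    rw [abs_le]
    constructor <;> linarith

theorem T_supp {ρ : V → ℝ} {k m n : ℕ} {c x : V} (h : T W ρ k m n c x ≠ 0) :
    rep W k m x = c ∧ d1 * ρ x < 4 * (th k : ℝ) ∧ 3 * (th k : ℝ) < kap * ρ x ∧
      |(W.D k m x : ℝ) - n * ((th k : ℝ) / 4)| < (th k : ℝ) / 4 := by
  unfold T at h
  split_ifs at h with hc
  · refine ⟨hc, ?_⟩
    have h1 : 0 < fn W ρ k m n x := by
      by_contra h2
      push Not at h2
      exact h (max_eq_left h2)
    unfold fn at h1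
    rw [lt_min_iff, lt_min_iff, lt_min_iff] at h1
    obtain ⟨h1, h2, h3, h4⟩ := h1
    refine ⟨by linarith, by linarith, by linarith⟩
  · exact absurd rfl h

theorem T_le {ρ : V → ℝ} (h : W.Scale ρ) (k m n : ℕ) (c x : V) :
    T W ρ k m n c x ≤ kap * ρ x := by
  have hk : (0 : ℝ) < kap := by unfold kap; positivity
  have h0 : 0 ≤ kap * ρ x := mul_nonneg hk.le (h.nonneg x)
  unfold T
  split_ifs
  · refine max_le h0 ?_
    unfold fn
    refine ((min_le_right _ _).trans (min_le_left _ _)).trans ?_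
    have : (0 : ℝ) < th k := by exact_mod_cast th_pos k
    linarith
  · exact h0

end Vale.Agent.P235.STO.H276
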