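import Vale.Agent.P235.ST.H276.Clock

/-! P235, (ST) O(1), rows r6 + r7 (helper276): the bumps of one level, part 3. -/

namespace Vale.Agent.P235.STO.H276

open SimpleGraph

variable {V : Type} {W : LWorld V}

theorem exists_th {X : ℝ} (hX : 16 ≤ X) : ∃ k : ℕ, (th k : ℝ) ≤ X ∧ X < 2 * (th k : ℝ) := by
  obtain ⟨k, h1, h2⟩ := exists_nat_pow_near (x := X / 16) (y := 2) (by linarith) (by norm_num)
  refine ⟨k, ?_, ?_⟩
  · unfold th
    push_cast
    linarith
  · unfold th
    push_cast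
    rw [pow_succ] at h2
    linarith

/-- the support of the bumps at `x` is small -/
theorem supp_inj {ρ : V → ℝ} {k m n k' n' : ℕ} {c c' x : V}
    (h : T W ρ k m n c x ≠ 0) (h' : T W ρ k' m n' c' x ≠ 0) (hk : k % 128 = k' % 128)
    (hn : n % 2 = n' % 2) : k = k' ∧ n = n' ∧ c = c' := by
  have key : ∀ k n k' n' : ℕ, ∀ c c' : V, T W ρ k m n c x ≠ 0 → T W ρ k' m n' c' x ≠ 0 →
      k' < k + 80 := by
    intro k n k' n' c c' h h'
    obtain ⟨-, h1, -, -⟩ := T_supp h
    obtain ⟨-, -, h2, -⟩ := T_supp h'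
    have e : (kap : ℝ) = 2 ^ 78 * d1 := by unfold kap d1; norm_num
    rw [e] at h2
    unfold th at h1 h2
    push_cast at h1 h2
    have h3 : (2 : ℝ) ^ k' < 2 ^ (k + 80) := by
      rw [pow_add]
      have h4 := mul_lt_mul_of_pos_left h1 (show (0 : ℝ) < 2 ^ 78 by positivity)
      have h5 : (0 : ℝ) < 2 ^ k := by positivity
      have h6 : (2 : ℝ) ^ 80 = 2 ^ 78 * 4 := by norm_num
      rw [h6]
      nlinarith [h4, h5, h2]
    exact (pow_lt_pow_iff_right₀ (by norm_num : (1 : ℝ) < 2)).1 h3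
  have a1 := key k n k' n' c c' h h'
  have a2 := key k' n' k n c' c h' h
  have hkk : k = k' := by omega
  subst hkk
  obtain ⟨h1, -, -, h2⟩ := T_supp h
  obtain ⟨h1', -, -, h2'⟩ := T_supp h'
  refine ⟨rfl, ?_, h1.symm.trans h1'⟩
  have hw : (0 : ℝ) < (th k : ℝ) / 4 := by
    have : (0 : ℝ) < th k := by exact_mod_cast th_pos k
    linarith
  rw [abs_lt] at h2 h2'
  have h3 : (n : ℝ) < n' + 2 := by
    by_contra hc
    push Not at hc
    have := mul_le_mul_of_nonneg_right hc hw.le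
    linarith
  have h4 : (n' : ℝ) < n + 2 := by
    by_contra hc
    push Not at hc
    have := mul_le_mul_of_nonneg_right hc hw.le
    linarith
  have h5 : n < n' + 2 := by exact_mod_cast h3
  have h6 : n' < n + 2 := by exact_mod_cast h4
  omega

/-- on the plateau a bump is a tent -/
theorem T_plateau {ρ : V → ℝ} {k m n : ℕ} {c x : V} (hc : rep W k m x = c)
    (h1 : (th k : ℝ) / 4 ≤ 4 * (th k : ℝ) - d1 * ρ x)
    (h2 : (th k : ℝ) / 4 ≤ kap * ρ x - 3 * (th k : ℝ)) (h3 : (th k : ℝ) / 4 ≤ (hd W k m x : ℝ)) :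
    T W ρ k m n c x = max 0 ((th k : ℝ) / 4 - |(W.D k m x : ℝ) - n * ((th k : ℝ) / 4)|) := by
  unfold T
  rw [if_pos hc]
  unfold fn
  have h4 : (th k : ℝ) / 4 - |(W.D k m x : ℝ) - n * ((th k : ℝ) / 4)| ≤ (th k : ℝ) / 4 := by
    have := abs_nonneg ((W.D k m x : ℝ) - n * ((th k : ℝ) / 4))
    linarith
  rw [min_eq_right (h4.trans h3), min_eq_right (h4.trans h2), min_eq_right (h4.trans h1)]

/-- a bump vanishes if the clock is too far -/
theorem T_far {ρ : V → ℝ} {k m n : ℕ} {c x : V}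
    (h : (th k : ℝ) / 4 ≤ |(W.D k m x : ℝ) - n * ((th k : ℝ) / 4)|) :
    T W ρ k m n c x = 0 := by
  by_contra hne
  obtain ⟨-, -, -, h2⟩ := T_supp hne
  linarith

theorem plateau_self {ρ : V → ℝ} {k : ℕ} {z : V} (hl : inList (ρ z) k) :
    (th k : ℝ) / 4 ≤ 4 * (th k : ℝ) - d1 * ρ z ∧
      (th k : ℝ) / 4 ≤ kap * ρ z - 3 * (th k : ℝ) := by
  obtain ⟨h1, h2⟩ := hl
  have e : (kap : ℝ) = 8 * dl := by unfold kap dl; norm_num
  have h3 : (0 : ℝ) < th k := by exact_mod_cast th_pos k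
  rw [e]
  constructor <;> linarith

/-- one thin clock is enough if the pair is at least `8 h` apart -/
theorem thin [Finite V] {ρ : V → ℝ} {k m : ℕ} {z y : V} (hz : z ∈ W.N) (hy : y ∈ W.N)
    (hi : W.idx z ≤ W.idx y) (hl : inList (ρ z) k) (hm : W.mid k m z)
    (hd8 : ¬ (W.Bg k m).Reachable z y ∨ 8 * (th k : ℝ) ≤ W.d z y) :
    ∃ n : ℕ, (n : ℝ) * ((th k : ℝ) / 4) ≤ W.D k m z + (th k : ℝ) / 4 ∧
      (th k : ℝ) / 8 ≤ |T W ρ k m n (rep W k m z) z - T W ρ k m n (rep W k m z) y| := by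
  have h0 : (0 : ℝ) < th k := by exact_mod_cast th_pos k
  obtain ⟨n, hn1, hn2⟩ := tent_big (w := (th k : ℝ) / 4) (a := (W.D k m z : ℝ)) (by linarith)
    (Nat.cast_nonneg _)
  refine ⟨n, hn1, ?_⟩
  have h1 := T_plateau (n := n) (rfl : rep W k m z = rep W k m z) (plateau_self hl).1
    (plateau_self hl).2 (hd_mid W hm)
  have h2 : (th k : ℝ) / 8 ≤ T W ρ k m n (rep W k m z) z := by
    rw [h1]
    refine le_trans ?_ (le_max_right _ _)
    linarith
  have h3 : T W ρ k m n (rep W k m z) y = 0 := by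
    by_cases hr : (W.Bg k m).Reachable z y
    · have hd9 := hd8.resolve_left (not_not.2 hr)
      refine T_far ?_
      have h4 := D_T W k m hz hy hr hi
      have h5 := (bi_of_reach W k m hr).2
      have h6 : (W.D k m z : ℝ) + (W.Bg k m).dist z y ≤ W.D k m y + 2 * (th k : ℝ) := by
        exact_mod_cast h4
      have h7 : (W.d z y : ℝ) ≤ (W.Bg k m).dist z y := by
        unfold LWorld.d
        exact_mod_cast h5
      have h8 : |(W.D k m z : ℝ) - n * ((th k : ℝ) / 4)| ≤ (th k : ℝ) / 8 := by linarith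
      rw [abs_le] at h8
      refine le_trans ?_ (le_abs_self _)
      linarith
    · unfold T
      rw [if_neg]
      intro h
      exact hr ((rep_eq W).1 h.symm)
  rw [h3, sub_zero]
  exact h2.trans (le_abs_self _)

/-- target pairs are seen -/
theorem seen [Finite V] {ρ : V → ℝ} (h : W.Scale ρ) {z y : V} (hz : z ∈ W.N) (hy : y ∈ W.N)
    (hu : W.u z = W.u y) (hi : W.idx z ≤ W.idx y) (hr0 : r0 ≤ W.d z y) (hρ : W.d z y ≤ ρ z)
    (hs : kap * ρ z < 2 * W.d z y ∨ ∃ k m, m < 16 ∧ inList (ρ z) k ∧ W.serves k m z y) :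
    ∃ k m n : ℕ, m < 16 ∧ inList (ρ z) k ∧
      (n : ℝ) * ((th k : ℝ) / 4) ≤ max (W.D k m z) (W.D k m y) + (th k : ℝ) / 4 ∧
      1 / 2 ^ 32 * W.d z y ≤ |T W ρ k m n (rep W k m z) z - T W ρ k m n (rep W k m z) y| := by
  have hd0 : (0 : ℝ) < W.d z y := by
    refine lt_of_lt_of_le ?_ hr0
    unfold r0
    positivity
  have hr1 : (2 : ℝ) ^ 90 ≤ W.d z y := hr0
  by_cases hfar : kap * ρ z < 2 * W.d z y
  · obtain ⟨k, hk1, hk2⟩ := exists_th (X := dl * ρ z / 2) (by
      unfold dl
      have : (2 : ℝ) ^ 90 ≤ ρ z := hr1.trans hρ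
      have h2 : (1 / 2 ^ 25 * (2 : ℝ) ^ 90) ≤ 1 / 2 ^ 25 * ρ z :=
        mul_le_mul_of_nonneg_left this (by positivity)
      have h3 : (16 : ℝ) * 2 ≤ 1 / 2 ^ 25 * (2 : ℝ) ^ 90 := by norm_num
      linarith)
    have hρ0 : 0 ≤ ρ z := h.nonneg z
    have hl : inList (ρ z) k := by
      constructor
      · have e : (d1 : ℝ) * ρ z ≤ dl * ρ z / 4 := by
          unfold d1 dl
          have : (1 / 2 ^ 100 : ℝ) * ρ z ≤ (1 / 2 ^ 25 / 4) * ρ z :=
            mul_le_mul_of_nonneg_right (by norm_num) hρ0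
          linarith
        linarith
      · have : (0 : ℝ) < th k := by exact_mod_cast th_pos k
        linarith
    obtain ⟨m, hm, hmid⟩ := exists_mid W k z
    obtain ⟨n, hn1, hn2⟩ := thin hz hy hi hl hmid (Or.inr (by
      have e : (kap : ℝ) = 8 * dl := by unfold kap dl; norm_num
      rw [e] at hfar
      linarith))
    refine ⟨k, m, n, hm, hl, hn1.trans (by gcongr; exact le_max_left _ _), le_trans ?_ hn2⟩
    unfold dl at hk2
    have h4 : W.d z y ≤ ρ z := hρ
    have h5 : (1 / 2 ^ 32 : ℝ) * W.d z y ≤ 1 / 2 ^ 32 * ρ z :=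
      mul_le_mul_of_nonneg_left h4 (by positivity)
    have e : (1 / 2 ^ 25 : ℝ) * ρ z = 2 ^ 7 * (1 / 2 ^ 32 * ρ z) := by ring
    rw [e] at hk2
    have : 0 ≤ (1 / 2 ^ 32 : ℝ) * ρ z := mul_nonneg (by positivity) hρ0
    linarith
  · push Not at hfar
    obtain ⟨k, m, hm, hl, hsv⟩ := hs.resolve_left (not_lt.2 hfar)
    by_cases hthin : W.d z y < 16 * (th k : ℝ)
    · -- the clock itself
      by_cases hr : (W.Bg k m).Reachable z y
      · have hD := hsv.2.resolve_left (not_not.2 hr)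
        have hcp : (0 : ℝ) ≤ cp * W.d z y := mul_nonneg (by unfold cp; positivity) hd0.le
        have h0 : (0 : ℝ) < th k := by exact_mod_cast th_pos k
        obtain ⟨n, hn1, hn2⟩ := tent_diff (w := (th k : ℝ) / 4) (a := (W.D k m z : ℝ))
          (b := (W.D k m y : ℝ)) (by linarith) (Nat.cast_nonneg _) (by linarith)
        refine ⟨k, m, n, hm, hl, hn1.trans (by gcongr; exact le_max_right _ _), ?_⟩
        have hbi := bi_of_reach' W k m hr
        have hmy : W.mid k m y := by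
          have e : W.pos k m z = W.pos k m y := by
            unfold LWorld.pos
            rw [hu]
          have := hsv.1
          unfold LWorld.mid at this ⊢
          rwa [← e]
        have hlip := h.lip z y
        have hk : (0 : ℝ) < kap := by unfold kap; positivity
        rw [abs_le] at hlip
        obtain ⟨hlip1, hlip2⟩ := hlip
        rw [neg_le, neg_sub, le_div_iff₀ hk] at hlip1
        rw [le_div_iff₀ hk] at hlip2
        have e8 : (kap : ℝ) = 8 * dl := by unfold kap dl; norm_num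
        have hρy1 : kap * ρ y ≤ 3 / 2 * (kap * ρ z) := by linarith
        have hρy2 : kap * ρ z / 2 ≤ kap * ρ y := by linarith
        have hρy3 : d1 * ρ y ≤ 3 / 2 * (d1 * ρ z) := by
          have e : (kap : ℝ) = 2 ^ 78 * d1 := by unfold kap d1; norm_num
          rw [e] at hρy1
          have : (0 : ℝ) < 2 ^ 78 := by positivity
          nlinarith
        obtain ⟨hl1, hl2⟩ := hl
        have hl3 : 8 * (th k : ℝ) ≤ kap * ρ z := by rw [e8]; linarith
        rw [T_plateau rfl (plateau_self ⟨hl1, hl2⟩).1 (plateau_self ⟨hl1, hl2⟩).2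
          (hd_mid W hsv.1), T_plateau ((rep_eq W).2 hr.symm) (by linarith) (by linarith)
          (hd_mid W hmy)]
        refine le_trans (le_min ?_ ?_) hn2
        · unfold cp at hD hcp
          have : (1 / 2 ^ 32 : ℝ) * W.d z y ≤ (1 / 2 ^ 21 : ℝ) * W.d z y / 2 := by
            have h9 : (1 / 2 ^ 32 : ℝ) * W.d z y ≤ (1 / 2 ^ 21 / 2) * W.d z y :=
              mul_le_mul_of_nonneg_right (by norm_num) hd0.le
            linarith
          linarith
        · have : (1 / 2 ^ 32 : ℝ) * W.d z y ≤ 1 / 128 * W.d z y :=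
            mul_le_mul_of_nonneg_right (by norm_num) hd0.le
          linarith
      · obtain ⟨n, hn1, hn2⟩ := thin hz hy hi hl hsv.1 (Or.inl hr)
        refine ⟨k, m, n, hm, hl, hn1.trans (by gcongr; exact le_max_left _ _), le_trans ?_ hn2⟩
        have : (1 / 2 ^ 32 : ℝ) * W.d z y ≤ 1 / 128 * W.d z y :=
          mul_le_mul_of_nonneg_right (by norm_num) hd0.le
        linarith
    · push Not at hthin
      obtain ⟨k', hk1, hk2⟩ := exists_th (X := W.d z y / 8) (by
        have : (16 : ℝ) * 8 ≤ 2 ^ 90 := by norm_num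
        linarith)
      have hl' : inList (ρ z) k' := by
        constructor
        · have := hl.1
          linarith
        · have e8 : (kap : ℝ) = 8 * dl := by unfold kap dl; norm_num
          rw [e8] at hfar
          have : (0 : ℝ) < th k' := by exact_mod_cast th_pos k'
          linarith
      obtain ⟨m', hm', hmid⟩ := exists_mid W k' z
      obtain ⟨n, hn1, hn2⟩ := thin hz hy hi hl' hmid (Or.inr (by linarith))
      refine ⟨k', m', n, hm', hl', hn1.trans (by gcongr; exact le_max_left _ _),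
        le_trans ?_ hn2⟩
      have : (1 / 2 ^ 32 : ℝ) * W.d z y ≤ 1 / 128 * W.d z y :=
        mul_le_mul_of_nonneg_right (by norm_num) hd0.le
      linarith

end Vale.Agent.P235.STO.H276
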