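import Vale.Agent.P235.ST.H276.Bumps3

/-! P235, (ST) O(1), rows r6 + r7 (helper276): the bumps of one level, the theorem. -/

namespace Vale.Agent.P235.STO.H276

open SimpleGraph

variable {V : Type} (W : LWorld V)

open Classical in
/-- row `bumps`; the last hypothesis is `W.tgt ρ z y` unfolded -/
theorem bumps [Fintype V] {ρ : V → ℝ} (h : W.Scale ρ) :
    ∃ (ι : Type) (_ : Fintype ι) (T : ι → V → ℝ),
    (∀ x y, W.G.Adj x y → ∑ i, |T i x - T i y| ≤ Cf) ∧ (∀ x, ∑ i, |T i x| ≤ ρ x) ∧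
    ∀ z y, (z ∈ W.N ∧ y ∈ W.N ∧ W.u z = W.u y ∧ W.idx z ≤ W.idx y ∧ r0 ≤ W.d z y ∧
      W.nxt ρ z < W.d z y ∧ W.d z y ≤ ρ z ∧
      (kap * ρ z < 2 * W.d z y ∨ ∃ k m, m < 16 ∧ inList (ρ z) k ∧ W.serves k m z y)) →
      ∃ i, 1 / 2 ^ 32 * W.d z y ≤ |T i z - T i y| := by
  -- ranges of the indices
  obtain ⟨K, hK⟩ := pow_unbounded_of_one_lt (∑ x, ρ x) (show (1 : ℝ) < 2 by norm_num)
  have hK' : ∀ z k, inList (ρ z) k → k < K := by
    intro z k hl
    have h1 : ρ z ≤ ∑ x, ρ x :=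
      Finset.single_le_sum (f := ρ) (fun x _ => h.nonneg x) (Finset.mem_univ z)
    have h2 := hl.2
    unfold th at h2
    push_cast at h2
    have h3 : dl * ρ z ≤ ρ z := by
      unfold dl
      have := h.nonneg z
      have h4 : (1 / 2 ^ 25 : ℝ) * ρ z ≤ 1 * ρ z :=
        mul_le_mul_of_nonneg_right (by norm_num) this
      linarith
    have h4 : (0 : ℝ) < 2 ^ k := by positivity
    have h5 : (2 : ℝ) ^ k < 2 ^ K := by linarith
    exact (pow_lt_pow_iff_right₀ (by norm_num : (1 : ℝ) < 2)).1 h5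
  set M : ℕ := 2 + ∑ p : Fin K × Fin 16 × V, W.D p.1 p.2.1 p.2.2 with hM
  have hDM : ∀ k m x, k < K → m < 16 → W.D k m x + 2 ≤ M := by
    intro k m x hk hm
    have := Finset.single_le_sum (f := fun p : Fin K × Fin 16 × V => W.D p.1 p.2.1 p.2.2)
      (fun _ _ => Nat.zero_le _) (Finset.mem_univ ((⟨k, hk⟩, ⟨m, hm⟩, x) : Fin K × Fin 16 × V))
    rw [hM]
    have h2 : W.D k m x ≤ ∑ p : Fin K × Fin 16 × V, W.D p.1 p.2.1 p.2.2 := this
    omega
  let F : (Fin K × Fin 16 × V × Fin M) → V → ℝ := fun i x =>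
    T W ρ i.1 i.2.1 i.2.2.2 i.2.2.1 x
  have hcard : ∀ x, (Finset.univ.filter fun i => F i x ≠ 0).card ≤ 4096 := by
    intro x
    have h1 : (Finset.univ.filter fun i => F i x ≠ 0).card ≤
        (Finset.univ : Finset (Fin 128 × Fin 16 × Fin 2)).card := by
      refine Finset.card_le_card_of_injOn
        (fun i => ((⟨(i.1 : ℕ) % 128, Nat.mod_lt _ (by norm_num)⟩ : Fin 128), i.2.1,
          (⟨(i.2.2.2 : ℕ) % 2, Nat.mod_lt _ (by norm_num)⟩ : Fin 2))) (fun _ _ => by simp) ?_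
      rintro ⟨k, m, c, n⟩ hi ⟨k', m', c', n'⟩ hj hij
      replace hi := (Finset.mem_filter.1 hi).2
      replace hj := (Finset.mem_filter.1 hj).2
      simp only [Prod.mk.injEq, Fin.mk.injEq] at hij
      obtain ⟨e1, e2, e3⟩ := hij
      subst e2
      obtain ⟨f1, f2, f3⟩ := supp_inj hi hj e1 e3
      simp only [Prod.mk.injEq, true_and]
      exact ⟨Fin.ext f1, f3, Fin.ext f2⟩
    refine h1.trans (le_of_eq ?_)
    rw [Finset.card_univ]
    simp [Fintype.card_prod]
  refine ⟨Fin K × Fin 16 × V × Fin M, inferInstance, F, ?_, ?_, ?_⟩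
  · intro x y hxy
    have h1 : ∀ i, |F i x - F i y| ≤
        (if F i x ≠ 0 then (1 : ℝ) else 0) + (if F i y ≠ 0 then (1 : ℝ) else 0) := by
      intro i
      have h2 : |F i x - F i y| ≤ 1 := T_lip h _ _ _ _ hxy
      by_cases hx : F i x = 0
      · by_cases hy : F i y = 0
        · simp [hx, hy]
        · rw [if_neg (not_not.2 hx), if_pos hy]
          linarith
      · rw [if_pos hx]
        split_ifs <;> linarith
    have h3 : ∀ x, ∑ i, (if F i x ≠ 0 then (1 : ℝ) else 0) ≤ 4096 := by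
      intro x
      rw [Finset.sum_boole]
      exact_mod_cast hcard x
    calc ∑ i, |F i x - F i y| ≤ ∑ i, ((if F i x ≠ 0 then (1 : ℝ) else 0) +
          (if F i y ≠ 0 then (1 : ℝ) else 0)) := Finset.sum_le_sum fun i _ => h1 i
      _ ≤ 4096 + 4096 := by
          rw [Finset.sum_add_distrib]
          exact add_le_add (h3 x) (h3 y)
      _ ≤ Cf := by unfold Cf; norm_num
  · intro x
    have hk : (0 : ℝ) ≤ kap * ρ x := mul_nonneg (by unfold kap; positivity) (h.nonneg x)
    have h1 : ∀ i, |F i x| ≤ (if F i x ≠ 0 then kap * ρ x else 0) := by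
      intro i
      by_cases hx : F i x = 0
      · simp [hx]
      · rw [if_pos hx, abs_of_nonneg (T_nonneg ρ _ _ _ _ _)]
        exact T_le h _ _ _ _ _
    calc ∑ i, |F i x| ≤ ∑ i, (if F i x ≠ 0 then kap * ρ x else 0) :=
          Finset.sum_le_sum fun i _ => h1 i
      _ = ((Finset.univ.filter fun i => F i x ≠ 0).card : ℝ) * (kap * ρ x) := by
          rw [← Finset.sum_filter, Finset.sum_const, nsmul_eq_mul]
      _ ≤ 4096 * (kap * ρ x) := mul_le_mul_of_nonneg_right (by exact_mod_cast hcard x) hk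
      _ ≤ ρ x := by
          unfold kap
          have := h.nonneg x
          have h4 : (4096 * (1 / 2 ^ 22) : ℝ) * ρ x ≤ 1 * ρ x :=
            mul_le_mul_of_nonneg_right (by norm_num) this
          linarith
  · rintro z y ⟨hz, hy, hu, hi, hr0, -, hρ, hs⟩
    obtain ⟨k, m, n, hm, hl, hn, hT⟩ := seen h hz hy hu hi hr0 hρ hs
    have hk := hK' z k hl
    have hnM : n < M := by
      have h1 := hDM k m z hk hm
      have h2 := hDM k m y hk hm
      have hth : (16 : ℝ) ≤ th k := by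
        unfold th
        push_cast
        have : (1 : ℝ) ≤ 2 ^ k := one_le_pow₀ (by norm_num)
        linarith
      have h4 : max (W.D k m z) (W.D k m y) + 2 ≤ M := by omega
      generalize max (W.D k m z) (W.D k m y) = E at hn h4
      have h3 : (E : ℝ) + 2 ≤ M := by exact_mod_cast h4
      have h5 : (0 : ℝ) ≤ (E : ℝ) := Nat.cast_nonneg _
      have h6 : (n : ℝ) < M := by
        by_contra hc
        push Not at hc
        have h7 : (n : ℝ) - 1 ≥ (E : ℝ) + 1 := by linarith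
        have h8 : ((n : ℝ) - 1) * ((th k : ℝ) / 4) ≤ (E : ℝ) := by linarith
        have h9 : ((n : ℝ) - 1) * 4 ≤ ((n : ℝ) - 1) * ((th k : ℝ) / 4) :=
          mul_le_mul_of_nonneg_left (by linarith) (by linarith)
        linarith
      exact_mod_cast h6
    exact ⟨(⟨k, hk⟩, ⟨m, hm⟩, rep W k m z, ⟨n, hnM⟩), hT⟩

end Vale.Agent.P235.STO.H276
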