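import Vale.Agent.P235.ST.H276.Bumps2

/-! P235, (ST) O(1), (T) and `exists_mid` (helper276, private copies of rows r1, r2). -/

namespace Vale.Agent.P235.STO.H276

open SimpleGraph

variable {V : Type} (W : LWorld V)

theorem reach_of_walk (k m : ℕ) {x y : V} (g : W.G.Walk x y)
    (h : ∀ z ∈ g.support, W.bi k m z = W.bi k m x) :
    (W.Bg k m).Reachable x y ∧ (W.Bg k m).dist x y ≤ g.length := by
  have he : ∀ e ∈ g.edges, e ∈ (W.Bg k m).edgeSet := by
    intro e he
    induction e with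
    | _ a b =>
      rw [mem_edgeSet]
      refine ⟨g.adj_of_mem_edges he, ?_⟩
      rw [h a (g.fst_mem_support_of_mem_edges he), h b (g.snd_mem_support_of_mem_edges he)]
  have h1 : (g.transfer _ he).length = g.length := Walk.length_transfer _ _
  exact ⟨(g.transfer _ he).reachable, by rw [← h1]; exact dist_le _⟩

theorem bi_of_reach (k m : ℕ) {x y : V} (h : (W.Bg k m).Reachable x y) :
    W.bi k m x = W.bi k m y ∧ W.G.dist x y ≤ (W.Bg k m).dist x y := by
  refine ⟨bi_of_reach' W k m h, ?_⟩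
  obtain ⟨g, hg⟩ := h.exists_walk_length_eq_dist
  have hle : W.Bg k m ≤ W.G := fun a b h => h.1
  rw [← hg, ← Walk.length_map (Hom.ofLE hle) g]
  exact dist_le _

/-- heights along a walk -/
theorem u_walk {x y : V} (g : W.G.Walk x y) : |W.u x - W.u y| ≤ (g.length : ℤ) := by
  induction g with
  | nil => simp
  | cons h p ih =>
    have h1 := W.unit _ _ h
    rw [Walk.length_cons]
    push_cast
    have h2 := abs_sub_le (W.u _) (W.u _) (W.u _) |>.trans (add_le_add h1.le ih)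
    linarith

theorem reach_of_L_aux (k m : ℕ) {p a b : V} (hp : p ∈ W.N) (ha : a ∈ W.L p) (hb : b ∈ W.L p)
    (h : W.bi k m a = W.bi k m b) (hu : W.u a ≤ W.u b) :
    (W.Bg k m).Reachable a b ∧ ((W.Bg k m).dist a b : ℤ) ≤ W.u b - W.u a := by
  classical
  obtain ⟨q, hq, -⟩ := W.L_path p hp a ha b hb hu
  have hz : ∀ z ∈ q.support, W.bi k m z = W.bi k m a := by
    intro z hz
    have h1 := u_walk W (q.takeUntil z hz)
    have h2 := u_walk W (q.dropUntil z hz)
    have h3 : (q.takeUntil z hz).length + (q.dropUntil z hz).length = q.length := by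
      rw [← Walk.length_append, Walk.take_spec]
    rw [abs_le] at h1 h2
    have h4 : W.u a ≤ W.u z ∧ W.u z ≤ W.u b := by omega
    have h5 : W.bi k m a ≤ W.bi k m z :=
      Int.ediv_le_ediv (th_pos k) (by linarith [h4.1])
    have h6 : W.bi k m z ≤ W.bi k m b :=
      Int.ediv_le_ediv (th_pos k) (by linarith [h4.2])
    omega
  obtain ⟨h1, h2⟩ := reach_of_walk W k m q hz
  refine ⟨h1, ?_⟩
  rw [← hq]
  exact_mod_cast h2

theorem reach_of_L (k m : ℕ) {p a b : V} (hp : p ∈ W.N) (ha : a ∈ W.L p) (hb : b ∈ W.L p)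
    (h : W.bi k m a = W.bi k m b) :
    (W.Bg k m).Reachable a b ∧ ((W.Bg k m).dist a b : ℤ) ≤ |W.u a - W.u b| := by
  rcases le_total (W.u a) (W.u b) with hu | hu
  · obtain ⟨h1, h2⟩ := reach_of_L_aux W k m hp ha hb h hu
    rw [abs_sub_comm, abs_of_nonneg (by linarith)]
    exact ⟨h1, h2⟩
  · obtain ⟨h1, h2⟩ := reach_of_L_aux W k m hp hb ha h.symm hu
    rw [abs_of_nonneg (by linarith), dist_comm]
    exact ⟨h1.symm, h2⟩

theorem src_nonempty [Finite V] {k m : ℕ} {p : V} (hp : p ∈ W.N) : (W.src k m p).Nonempty := by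
  have hfin : {y | (W.Bg k m).Reachable p y ∧ y ∈ W.N}.Finite := Set.toFinite _
  have hne : {y | (W.Bg k m).Reachable p y ∧ y ∈ W.N}.Nonempty := ⟨p, Reachable.refl _, hp⟩
  obtain ⟨y, hy, hmin⟩ := Set.exists_min_image _ W.idx hfin hne
  exact ⟨y, hy.1, hy.2, fun z hz hr => hmin z ⟨hr, hz⟩⟩

theorem D_attain [Finite V] {k m : ℕ} {p : V} (hp : p ∈ W.N) :
    ∃ y ∈ W.src k m p, W.D k m p = (W.Bg k m).dist p y := by
  have hn : {n | ∃ y ∈ W.src k m p, n = (W.Bg k m).dist p y}.Nonempty := by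
    obtain ⟨y, hy⟩ := src_nonempty W (k := k) (m := m) hp
    exact ⟨_, y, hy, rfl⟩
  exact Nat.sInf_mem hn

/-- the optimal path of the clock of `q` meets the line of `p` -/
theorem D_split [Finite V] {k m : ℕ} {p q : V} (hp : p ∈ W.N) (hq : q ∈ W.N)
    (h : (W.Bg k m).Reachable p q) (hi : W.idx p ≤ W.idx q) :
    ∃ z ∈ W.L p, (W.Bg k m).Reachable q z ∧
      (W.Bg k m).dist q z + W.D k m z ≤ W.D k m q := by
  classical
  obtain ⟨y, hy, e⟩ := D_attain W (k := k) (m := m) hq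
  obtain ⟨g, hg⟩ := hy.1.exists_walk_length_eq_dist
  have hle : W.Bg k m ≤ W.G := fun a b h => h.1
  have hiy : W.idx y ≤ W.idx p := hy.2.2 p hp h.symm
  obtain ⟨z, hz, hzL⟩ := W.sep p hp y hy.2.1 q hq hiy hi (g.map (Hom.ofLE hle)).reverse
  have hz' : z ∈ g.support := by
    rw [Walk.support_reverse, List.mem_reverse, Walk.support_map] at hz
    obtain ⟨z', h1, h2⟩ := List.mem_map.1 hz
    have : z' = z := h2
    rwa [← this]
  refine ⟨z, hzL, (g.takeUntil z hz').reachable, ?_⟩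
  have h3 : (g.takeUntil z hz').length + (g.dropUntil z hz').length = g.length := by
    rw [← Walk.length_append, Walk.take_spec]
  have h4 : (W.Bg k m).dist q z ≤ (g.takeUntil z hz').length := dist_le _
  have h5 : W.D k m z ≤ (W.Bg k m).dist z y :=
    Nat.sInf_le ⟨y, by rw [← src_eq W (g.takeUntil z hz').reachable]; exact hy, rfl⟩
  have h6 : (W.Bg k m).dist z y ≤ (g.dropUntil z hz').length := dist_le _
  omega

theorem u_band {k m : ℕ} {x y : V} (h : W.bi k m x = W.bi k m y) :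
    |W.u x - W.u y| ≤ th k := by
  have h1 := pos_add W k m x
  have h2 := pos_add W k m y
  have h4 := pos_lt W k m x
  have h5 := pos_lt W k m y
  have h6 := pos_nonneg W k m x
  have h7 := pos_nonneg W k m y
  rw [h] at h1
  rw [abs_le]
  omega

theorem D_T [Finite V] (k m : ℕ) {p q : V} (hp : p ∈ W.N) (hq : q ∈ W.N)
    (h : (W.Bg k m).Reachable p q) (hi : W.idx p ≤ W.idx q) :
    (W.D k m p : ℤ) + (W.Bg k m).dist p q ≤ W.D k m q + 2 * th k := by
  obtain ⟨z, hz, hr, h1⟩ := D_split W hp hq h hi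
  have hpz : (W.Bg k m).Reachable p z := h.trans hr
  have hb := bi_of_reach' W k m hpz
  obtain ⟨-, h2⟩ := reach_of_L W k m hp (W.mem_L p hp) hz hb
  have h3 := u_band W hb
  have h4 := D_lip W hpz.symm
  have h5 := dist_tri hpz hr.symm
  rw [dist_comm (u := z) (v := p)] at h4
  rw [dist_comm (u := z) (v := q)] at h5
  omega

theorem D_M [Finite V] (k m : ℕ) {q y : V} (hq : q ∈ W.N) (hy : y ∈ W.N)
    (h : (W.Bg k m).Reachable q y) (hi : W.idx q ≤ W.idx y) :
    (W.D k m q : ℤ) ≤ W.D k m y + |W.u q - W.u y| := by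
  obtain ⟨z, hz, hr, h1⟩ := D_split W hq hy h hi
  have hqz : (W.Bg k m).Reachable q z := h.trans hr
  have hb := bi_of_reach' W k m hqz
  obtain ⟨-, h2⟩ := reach_of_L W k m hq (W.mem_L q hq) hz hb
  have h4 := D_lip W hqz.symm
  rw [dist_comm (u := z) (v := q)] at h4
  obtain ⟨g, hg⟩ := hr.exists_walk_length_eq_dist
  have hle : W.Bg k m ≤ W.G := fun a b h => h.1
  have h5 := u_walk W (g.map (Hom.ofLE hle))
  rw [Walk.length_map, hg] at h5
  have h6 : |W.u q - W.u z| ≤ |W.u q - W.u y| + |W.u y - W.u z| := abs_sub_le _ _ _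
  have h7 : |W.u y - W.u z| ≤ ((W.Bg k m).dist y z : ℤ) := h5
  omega

theorem exists_mid (k : ℕ) (z : V) : ∃ m < 16, W.mid k m z := by
  have hP : (0 : ℤ) < 2 ^ k := by positivity
  -- position of `z` for `m = 0`
  set a : ℤ := W.u z / 2 ^ k with ha
  set b : ℤ := W.u z % 2 ^ k with hb
  have h1 : 2 ^ k * a + b = W.u z := Int.mul_ediv_add_emod _ _
  have hb0 : 0 ≤ b := Int.emod_nonneg _ hP.ne'
  have hb1 : b < 2 ^ k := Int.emod_lt_of_pos _ hP
  -- choose `m` with `(a + m) % 16 = 7`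
  obtain ⟨m, hm, c, hc⟩ : ∃ m : ℕ, m < 16 ∧ ∃ c : ℤ, a + m = 16 * c + 7 := by
    refine ⟨((7 - a) % 16).toNat, by omega, (a + (7 - a) % 16 - 7) / 16, ?_⟩
    omega
  refine ⟨m, hm, ?_⟩
  have e : W.u z + m * 2 ^ k = th k * c + (7 * 2 ^ k + b) := by
    have : W.u z + m * 2 ^ k = 2 ^ k * (a + m) + b := by rw [← h1]; ring
    rw [this, hc]
    unfold th
    ring
  have e2 : W.pos k m z = 7 * 2 ^ k + b := by
    unfold LWorld.pos
    rw [e, Int.mul_add_emod_self_left]
    refine Int.emod_eq_of_lt (by positivity) ?_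
    unfold th
    linarith
  unfold LWorld.mid
  rw [e2]
  constructor <;> linarith

end Vale.Agent.P235.STO.H276
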